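import Vale.Agent.P292.Main

open Vale.Agent.P271 Vale.Agent.P276 Vale.Agent.P292

theorem Vale.Agent.Results.P292.A_full.result (K : Type) [Field K] [Algebra ℂ K] (N n : ℕ)
    (hn : 1 ≤ n) (t : Fin (N + 1) → K) (hK : IsFunctionField t)
    (hX : IsSmoothOfDim t (2 * n + 1)) (m : ℕ) (hm : 0 < m) (hF : AntiCanonical t (2 * n + 1) m)
    (θ : Derivation ℂ K K →ₗ[K] K) (hθ : IsContact t n θ) : IsAdjoint t θ :=
  adjoint_of_contact ⟨hK, hX, hm, hF⟩ hn hθ
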