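import Vale.Agent.P292.Alt

open Vale.Agent.P271 Vale.Agent.P276 Vale.Agent.P292

theorem Vale.Agent.Results.P292.B_full.result (K : Type) [Field K] [Algebra ℂ K] (N n : ℕ)
    (hn : 1 ≤ n) (t : Fin (N + 1) → K) (hK : IsFunctionField t)
    (hX : IsSmoothOfDim t (2 * n + 1)) (m : ℕ) (hm : 0 < m) (hF : AntiCanonical t (2 * n + 1) m)
    (θ : Derivation ℂ K K →ₗ[K] K) (hθ : IsContact t n θ) :
    ∃ (G : Type) (_ : LieRing G) (_ : LieAlgebra ℂ G) (_ : LieAlgebra.IsSimple ℂ G) (M : ℕ)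
      (b : Module.Basis (Fin (M + 1)) ℂ G) (e : G) (x : Fin (M + 1) → K),
      e ≠ 0 ∧ IsNilpotent (LieAlgebra.ad ℂ G e) ∧ (∀ a : G, ∃ c : ℂ, ⁅e, ⁅e, a⁆⁆ = c • e) ∧
      IsFunctionField x ∧
      (∀ w, OnX x w ↔ ∃ (c : ℂ) (y : G), c ≠ 0 ∧ Relation.ReflTransGen AdStep e y ∧
        b.equivFun.symm w = c • y) ∧
      (∀ v, OnX t v → ∃ w, OnX x w ∧ locRing t v = locRing x w) ∧
      (∀ w, OnX x w → ∃ v, OnX t v ∧ locRing t v = locRing x w) ∧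
      ∀ D, θ D = 0 ↔ ∃ z, killK b x z = 0 ∧ ∀ i, D (x i) = brK b z x i :=
  adjoint_explicit ⟨hK, hX, hm, hF⟩ hn hθ
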