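import Vale.Agent.P292.Alt

open Vale.Agent.P271 Vale.Agent.P276 Vale.Agent.P292

theorem Vale.Agent.Results.P292.C_full.result (K : Type) [Field K] [Algebra ℂ K] (N n : ℕ)
    (hn : 1 ≤ n) (t : Fin (N + 1) → K) (hK : IsFunctionField t)
    (hX : IsSmoothOfDim t (2 * n + 1)) (hF : ∃ m, 0 < m ∧ AntiCanonical t (2 * n + 1) m)
    (θ : Derivation ℂ K K →ₗ[K] K) (hθ : IsContact t n θ) :
    ∃ (G : Type) (_ : LieRing G) (_ : LieAlgebra ℂ G) (_ : LieAlgebra.IsSimple ℂ G) (M : ℕ)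
      (b : Module.Basis (Fin (M + 1)) ℂ G) (e : G) (x : Fin (M + 1) → K),
      e ≠ 0 ∧ IsNilpotent (LieAlgebra.ad ℂ G e) ∧ (∀ a : G, ∃ c : ℂ, ⁅e, ⁅e, a⁆⁆ = c • e) ∧
      IsFunctionField x ∧
      {w | OnX x w} = {w | ∃ (c : ℂ) (y : G), c ≠ 0 ∧ Relation.ReflTransGen AdStep e y ∧
        b.equivFun.symm w = c • y} ∧
      {O | ∃ v, OnX t v ∧ O = locRing t v} = {O | ∃ w, OnX x w ∧ O = locRing x w} ∧
      ∀ D, θ D = 0 ↔ ∃ z, killK b x z = 0 ∧ ∀ i, D (x i) = brK b z x i := by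
  obtain ⟨m, hm, hF⟩ := hF
  obtain ⟨G, _, _, hG, M, b, e, x, h1, h2, h3, h4, h5, h6, h7, h8⟩ :=
    adjoint_explicit ⟨hK, hX, hm, hF⟩ hn hθ
  refine ⟨G, inferInstance, inferInstance, hG, M, b, e, x, h1, h2, h3, h4, Set.ext h5,
    Set.ext fun O => ⟨?_, ?_⟩, h8⟩
  · rintro ⟨v, hv, rfl⟩
    exact h6 v hv
  · rintro ⟨w, hw, rfl⟩
    obtain ⟨v, hv, e⟩ := h7 w hw
    exact ⟨v, hv, e.symm⟩
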