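import Vale.Agent.P292.Alt

open Vale.Agent.P271 Vale.Agent.P276 Vale.Agent.P292

theorem Vale.Agent.Results.P292.D_full.result (K : Type) [Field K] [Algebra ℂ K] (N d : ℕ)
    (hd : 3 ≤ d) (t : Fin (N + 1) → K) (hK : IsFunctionField t) (hX : IsSmoothOfDim t d)
    (hF : ∃ m, 0 < m ∧ AntiCanonical t d m) (θ : Derivation ℂ K K →ₗ[K] K)
    (hθ : ∃ n, d = 2 * n + 1 ∧ IsContact t n θ) : IsAdjoint t θ := by
  obtain ⟨m, hm, hF⟩ := hF
  obtain ⟨n, rfl, hθ⟩ := hθ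
  exact adjoint_of_contact ⟨hK, hX, hm, hF⟩ (by omega) hθ
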